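import Vale.Agent.P184.H70.Lit
import Vale.Agent.P184.H38.Mean

/-! Averaged kernels: `MeanKerStmt` and `KerStmt`. -/

noncomputable section

namespace Vale.Agent.P184.H735

open Vale.Agent.P184.Un Vale.Agent.P184.H38 Vale.Agent.P184.H70

universe u v

section mean

variable {G : Type*} [Group G] {C D : Subgroup G} {m : (G → ℝ) → ℝ}
  (hadd : ∀ f g, BddInv C D f → BddInv C D g → m (fun c => f c + g c) = m f + m g)
  (hpos : ∀ f, BddInv C D f → (∀ c ∈ C, 0 ≤ f c) → 0 ≤ m f)
  (hconst : ∀ r : ℝ, m (fun _ => r) = r)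

theorem bi_smul (r : ℝ) {f : G → ℝ} (hf : BddInv C D f) : BddInv C D fun c => r * f c := by
  obtain ⟨⟨K, hK⟩, h⟩ := hf
  exact ⟨⟨|r| * K, fun c hc => by
      rw [abs_mul]; exact mul_le_mul_of_nonneg_left (hK c hc) (abs_nonneg r)⟩,
    fun d hd c hc => congrArg (r * ·) (h d hd c hc)⟩

theorem bi_add {f g : G → ℝ} (hf : BddInv C D f) (hg : BddInv C D g) :
    BddInv C D fun c => f c + g c := by
  obtain ⟨⟨K, hK⟩, h⟩ := hf
  obtain ⟨⟨K', hK'⟩, h'⟩ := hg
  exact ⟨⟨K + K', fun c hc => (abs_add_le _ _).trans (add_le_add (hK c hc) (hK' c hc))⟩,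
    fun d hd c hc => congrArg₂ (· + ·) (h d hd c hc) (h' d hd c hc)⟩

theorem bi_sum {ι : Type*} (s : Finset ι) {f : ι → G → ℝ} (hf : ∀ i ∈ s, BddInv C D (f i)) :
    BddInv C D fun c => ∑ i ∈ s, f i c := by
  classical
  induction s using Finset.induction_on with
  | empty => simpa using bi_const (C := C) (D := D) 0
  | insert a s ha ih =>
    simp only [Finset.sum_insert ha]
    exact bi_add (hf a (Finset.mem_insert_self a s))
      (ih fun i hi => hf i (Finset.mem_insert_of_mem hi))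

include hadd hpos hconst in
theorem m_smul {f : G → ℝ} (hf : BddInv C D f) (r : ℝ) : m (fun c => r * f c) = r * m f := by
  obtain ⟨K, hK⟩ := hf.1
  let φ : ℝ →+ ℝ :=
    { toFun := fun r => m fun c => r * f c
      map_zero' := by
        have : (fun c : G => (0 : ℝ) * f c) = fun _ => (0 : ℝ) := by funext c; ring
        rw [this, hconst]
      map_add' := fun a b => by
        have : (fun c : G => (a + b) * f c) = fun c => a * f c + b * f c := by funext c; ring
        rw [this]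
        exact hadd _ _ (bi_smul a hf) (bi_smul b hf) }
  have hc : Continuous φ := by
    refine AddMonoidHomClass.continuous_of_bound φ K fun r => ?_
    have h1 := m_abs hadd hpos hconst (bi_smul r hf) (|r| * K) fun c hc => by
      rw [abs_mul]; exact mul_le_mul_of_nonneg_left (hK c hc) (abs_nonneg r)
    rw [Real.norm_eq_abs, Real.norm_eq_abs, mul_comm]
    exact h1
  have h1 : φ r = r * φ 1 := by
    have h := (φ.toRealLinearMap hc).map_smul r 1
    simp only [smul_eq_mul, mul_one] at h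
    exact h
  have h2 : φ 1 = m f := by
    change m (fun c => 1 * f c) = m f
    simp only [one_mul]
  rw [h2] at h1
  exact h1

include hadd hconst in
theorem m_sum {ι : Type*} (s : Finset ι) {f : ι → G → ℝ} (hf : ∀ i ∈ s, BddInv C D (f i)) :
    m (fun c => ∑ i ∈ s, f i c) = ∑ i ∈ s, m (f i) := by
  classical
  induction s using Finset.induction_on with
  | empty => simpa using hconst 0
  | insert a s ha ih =>
    simp only [Finset.sum_insert ha]
    rw [hadd _ _ (hf a (Finset.mem_insert_self a s))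
      (bi_sum s fun i hi => hf i (Finset.mem_insert_of_mem hi)),
      ih fun i hi => hf i (Finset.mem_insert_of_mem hi)]

end mean

/-- the squared distance is conditionally negative definite -/
theorem cnd_dist {X H : Type*} [NormedAddCommGroup H] [InnerProductSpace ℝ H] (F : X → H)
    (s : Finset X) (c : X → ℝ) (hc : ∑ p ∈ s, c p = 0) :
    ∑ p ∈ s, ∑ q ∈ s, c p * c q * ‖F p - F q‖ ^ 2 = -(2 * ‖∑ p ∈ s, c p • F p‖ ^ 2) := by
  have h1 : ∀ p q, c p * c q * ‖F p - F q‖ ^ 2 = c q * (c p * ‖F p‖ ^ 2) +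
      c p * (c q * ‖F q‖ ^ 2) - 2 * inner ℝ (c p • F p) (c q • F q) := by
    intro p q
    rw [norm_sub_sq_real, inner_smul_left, inner_smul_right]
    simp only [conj_trivial]
    ring
  simp only [h1, Finset.sum_sub_distrib, Finset.sum_add_distrib, ← Finset.sum_mul,
    ← Finset.mul_sum, hc, zero_mul, zero_add]
  rw [← real_inner_self_eq_norm_sq, sum_inner]
  simp only [inner_sum, zero_sub, Finset.mul_sum]

theorem meanKer : MeanKerStmt.{u, v} := by
  intro G _ x hm H _ _ F K hK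
  obtain ⟨m, hadd, hpos, hconst, hinv⟩ := hm
  have hK0 : ∀ g, 0 ≤ K g := fun g => (norm_nonneg _).trans (hK g 1)
  set f : G → G → G → ℝ := fun p q c => ‖F (c * p) - F (c * q)‖ ^ 2 with hf
  have hbi : ∀ p q, BddInv (Cen x) ⊥ (f p q) := by
    intro p q
    refine ⟨⟨K (q⁻¹ * p) ^ 2, fun c _ => ?_⟩, fun d hd c _ => ?_⟩
    · have h := hK (q⁻¹ * p) (c * q)
      have e : c * q * (q⁻¹ * p) = c * p := by group
      rw [e] at h
      rw [hf, abs_of_nonneg (by positivity)]
      exact pow_le_pow_left₀ (norm_nonneg _) h 2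
    · rw [Subgroup.mem_bot.1 hd, one_mul]
  have hcomm : ∀ c ∈ Cen x, c * x = x * c := by
    intro c hc
    exact (Subgroup.mem_centralizer_singleton_iff.1 hc).symm ▸ rfl
  refine ⟨fun p q => m (f p q), ⟨?_, ?_, ?_⟩, ?_, ?_, ?_⟩
  · intro p q
    have : f p q = f q p := by
      funext c; simp only [hf]; rw [norm_sub_rev]
    simp only [this]
  · intro p
    have : f p p = fun _ => (0 : ℝ) := by
      funext c; simp [hf]
    simp only [this, hconst]
  · intro s c hc
    have e : ∑ p ∈ s, ∑ q ∈ s, c p * c q * m (f p q) =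
        m (fun g => ∑ p ∈ s, ∑ q ∈ s, c p * c q * f p q g) := by
      rw [m_sum hadd hconst s fun p _ => bi_sum s fun q _ => bi_smul (c p * c q) (hbi p q)]
      refine Finset.sum_congr rfl fun p _ => ?_
      rw [m_sum hadd hconst s fun q _ => bi_smul (c p * c q) (hbi p q)]
      exact Finset.sum_congr rfl fun q _ => (m_smul hadd hpos hconst (hbi p q) _).symm
    rw [e]
    have h0 := hconst 0
    rw [← h0]
    refine m_mono hadd hpos (bi_sum s fun p _ => bi_sum s fun q _ =>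
      bi_smul (c p * c q) (hbi p q)) (bi_const 0) fun g _ => ?_
    simp only [hf]
    rw [cnd_dist (fun p => F (g * p)) s c hc]
    have : 0 ≤ ‖∑ p ∈ s, c p • F (g * p)‖ ^ 2 := by positivity
    linarith
  · intro c hc p q
    have : f (c * p) (c * q) = fun g => f p q (g * c) := by
      funext g; simp only [hf, mul_assoc]
    simp only [this]
    exact hinv _ (hbi p q) c hc
  · intro g p
    have h0 := hconst (K g ^ 2)
    simp only
    rw [← h0]
    refine m_mono hadd hpos (hbi _ _) (bi_const _) fun c _ => ?_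
    simp only [hf, ← mul_assoc]
    exact pow_le_pow_left₀ (norm_nonneg _) (hK g (c * p)) 2
  · intro r p hr h
    have h0 := hconst (r ^ 2)
    simp only
    rw [← h0]
    refine m_mono hadd hpos (bi_const _) (hbi _ _) fun c hc => ?_
    simp only [hf]
    have h1 := h (c * p) (by
      rw [mul_inv_rev]
      calc p⁻¹ * c⁻¹ * x * (c * p) = p⁻¹ * (c⁻¹ * (x * c)) * p := by group
        _ = p⁻¹ * (c⁻¹ * (c * x)) * p := by rw [hcomm c hc]
        _ = p⁻¹ * x * p := by group)
    have e : c * (x * p) = x * (c * p) := by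
      rw [← mul_assoc, hcomm c hc, mul_assoc]
    rw [e]
    exact pow_le_pow_left₀ hr h1 2

theorem ker (hR : RealizeStmt.{u}) (hG : GGStmt) (hK : GGKerStmt.{u}) : KerStmt.{u, v} := by
  intro G _ x hm H _ _ F K hF
  obtain ⟨ψ, hψ, hinv, hup, hlow⟩ := meanKer G x hm H F K hF
  obtain ⟨hg1, hg2, hg3⟩ := hG
  have hK0 : ∀ g, 0 ≤ K g := fun g => (norm_nonneg _).trans (hF g 1)
  obtain ⟨E, _, _, f, hf⟩ := hR G _ (hK G ψ hψ)
  obtain ⟨E₀, _, _, f₀, hf₀⟩ := hR G ψ hψ
  have hψ0 : ∀ p q, 0 ≤ ψ p q := fun p q => by rw [← hf₀]; positivity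
  have hxn : ∀ n : ℕ, x ^ n ∈ Cen x := by
    intro n
    rw [Cen, Subgroup.mem_centralizer_singleton_iff]
    exact (Commute.refl x).pow_left n |>.eq.symm ▸ rfl
  have hdouble : ∀ (n : ℕ) (p : G), ψ (x ^ (2 * n) * p) p ≤ 4 * ψ (x ^ n * p) p := by
    intro n p
    have h1 : ‖f₀ (x ^ (2 * n) * p) - f₀ (x ^ n * p)‖ = ‖f₀ (x ^ n * p) - f₀ p‖ := by
      have e := hinv (x ^ n) (hxn n) (x ^ n * p) p
      rw [← hf₀, ← hf₀, ← mul_assoc, ← pow_add, ← two_mul] at e
      exact (pow_left_inj₀ (norm_nonneg _) (norm_nonneg _) two_ne_zero).1 e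
    have h2 : ‖f₀ (x ^ (2 * n) * p) - f₀ p‖ ≤ 2 * ‖f₀ (x ^ n * p) - f₀ p‖ := by
      calc ‖f₀ (x ^ (2 * n) * p) - f₀ p‖ ≤ ‖f₀ (x ^ (2 * n) * p) - f₀ (x ^ n * p)‖ +
            ‖f₀ (x ^ n * p) - f₀ p‖ := norm_sub_le_norm_sub_add_norm_sub _ _ _
        _ = 2 * ‖f₀ (x ^ n * p) - f₀ p‖ := by rw [h1]; ring
    rw [← hf₀, ← hf₀]
    calc ‖f₀ (x ^ (2 * n) * p) - f₀ p‖ ^ 2 ≤ (2 * ‖f₀ (x ^ n * p) - f₀ p‖) ^ 2 :=
          pow_le_pow_left₀ (norm_nonneg _) h2 2
      _ = 4 * ‖f₀ (x ^ n * p) - f₀ p‖ ^ 2 := by ring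
  refine ⟨E, inferInstance, inferInstance, f, ?_, ?_, ?_, ?_⟩
  · intro c hc p q
    refine (pow_left_inj₀ (norm_nonneg _) (norm_nonneg _) two_ne_zero).1 ?_
    rw [hf, hf, hinv c hc]
  · intro j p
    rw [hf, hf]
    induction j with
    | zero => simp
    | succ j ih =>
      have h1 : gg (ψ (x ^ (2 ^ (j + 1)) * p) p) ≤ gg (4 * ψ (x ^ (2 ^ j) * p) p) := by
        refine hg2 _ _ (hψ0 _ _) ?_
        rw [pow_succ' 2 j]
        exact hdouble _ _
      have h2 := (hg1 _ (hψ0 (x ^ (2 ^ j) * p) p)).2.2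
      push_cast
      linarith
  · intro g p
    have h1 : ‖f (p * g) - f p‖ ^ 2 ≤ (2 * K g) ^ 2 := by
      rw [hf]
      have h2 := (hg1 _ (hψ0 (p * g) p)).2.1
      have h3 := hup g p
      nlinarith [sq_nonneg (K g)]
    exact (pow_le_pow_iff_left₀ (norm_nonneg _) (mul_nonneg zero_le_two (hK0 g)) two_ne_zero).1 h1
  · intro M p h
    have h1 := hlow ((2 : ℝ) ^ (2 * M ^ 2)) p (by positivity) h
    have h2 : (4 : ℝ) ^ (2 * M ^ 2) ≤ ψ (x * p) p := by
      calc (4 : ℝ) ^ (2 * M ^ 2) = ((2 : ℝ) ^ (2 * M ^ 2)) ^ 2 := by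
            rw [← pow_mul, mul_comm (2 * M ^ 2) 2, pow_mul 2 2]; norm_num
        _ ≤ _ := h1
    have h3 := hg3 M _ h2
    rw [← hf] at h3
    exact (pow_le_pow_iff_left₀ (Nat.cast_nonneg M) (norm_nonneg _) two_ne_zero).1 h3

end Vale.Agent.P184.H735
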